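import Mathlib

namespace Vale.Agent.Results.P322.MatchingBound

open Finset

/-- The discrete cube, a sign being encoded as a Boolean. -/
abbrev Cube (n : ℕ) := Fin n → Bool

/-- `x` with its `i`-th coordinate reversed. -/
def flip {n : ℕ} (x : Cube n) (i : Fin n) : Cube n := Function.update x i (!x i)

/-- `P(Y = y | X = x)` for `n` independent binary symmetric channels of crossover `ε`. -/
noncomputable def bsc (ε : ℝ) {n : ℕ} (x y : Cube n) : ℝ :=
  ∏ i, (if x i = y i then 1 - ε else ε)

/-- The joint law of `(f(X), Y)`, `X` uniform on the cube. -/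
noncomputable def joint (ε : ℝ) {n : ℕ} (f : Cube n → Bool) (b : Bool) (y : Cube n) : ℝ :=
  ∑ x, if f x = b then (1 / 2 : ℝ) ^ n * bsc ε x y else 0

/-- Mutual information in bits of a joint law `p` on a finite product. -/
noncomputable def mutualInfo {A B : Type} [Fintype A] [Fintype B] (p : A → B → ℝ) : ℝ :=
  ∑ a, ∑ b, p a b * Real.logb 2 (p a b / ((∑ b', p a b') * (∑ a', p a' b)))

/-- Binary entropy in bits. -/
noncomputable def h2 (p : ℝ) : ℝ := -(p * Real.logb 2 p) - (1 - p) * Real.logb 2 (1 - p)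

theorem h2_eq (p : ℝ) : h2 p = Real.binEntropy p / Real.log 2 := by
  unfold h2 Real.binEntropy Real.logb
  rw [Real.log_inv, Real.log_inv]
  ring

theorem sum_bsc_right (ε : ℝ) {n : ℕ} (x : Cube n) : ∑ y, bsc ε x y = 1 := by
  unfold bsc
  rw [← Fintype.prod_sum (fun i b => if x i = b then 1 - ε else ε)]
  apply Finset.prod_eq_one
  intro i _
  rw [Fintype.sum_bool]
  cases x i <;> simp

theorem bsc_symm (ε : ℝ) {n : ℕ} (x y : Cube n) : bsc ε x y = bsc ε y x := by
  unfold bsc
  apply Finset.prod_congr rfl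
  intro i _
  simp only [eq_comm]

theorem sum_bsc_left (ε : ℝ) {n : ℕ} (y : Cube n) : ∑ x, bsc ε x y = 1 := by
  simp_rw [bsc_symm ε _ y]
  exact sum_bsc_right ε y

theorem bsc_nonneg {ε : ℝ} (h0 : 0 ≤ ε) (h1 : ε ≤ 1) {n : ℕ} (x y : Cube n) : 0 ≤ bsc ε x y := by
  unfold bsc
  apply Finset.prod_nonneg
  intro i _
  split_ifs <;> linarith

/-- posterior probability that `f(X)` is true given `Y = y`. -/
noncomputable def post (ε : ℝ) {n : ℕ} (f : Cube n → Bool) (y : Cube n) : ℝ :=
  ∑ x, if f x = true then bsc ε x y else 0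

theorem joint_true (ε : ℝ) {n : ℕ} (f : Cube n → Bool) (y : Cube n) :
    joint ε f true y = (1 / 2 : ℝ) ^ n * post ε f y := by
  unfold joint post
  rw [Finset.mul_sum]
  apply Finset.sum_congr rfl
  intro x _
  split_ifs <;> simp

theorem joint_false (ε : ℝ) {n : ℕ} (f : Cube n → Bool) (y : Cube n) :
    joint ε f false y = (1 / 2 : ℝ) ^ n * (1 - post ε f y) := by
  unfold joint post
  rw [← sum_bsc_left ε y, ← Finset.sum_sub_distrib, Finset.mul_sum]
  apply Finset.sum_congr rfl
  intro x _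
  cases f x <;> simp

theorem post_nonneg {ε : ℝ} (h0 : 0 ≤ ε) (h1 : ε ≤ 1) {n : ℕ} (f : Cube n → Bool) (y : Cube n) :
    0 ≤ post ε f y := by
  unfold post
  apply Finset.sum_nonneg
  intro x _
  split_ifs
  · exact bsc_nonneg h0 h1 x y
  · exact le_rfl

theorem post_le_one {ε : ℝ} (h0 : 0 ≤ ε) (h1 : ε ≤ 1) {n : ℕ} (f : Cube n → Bool) (y : Cube n) :
    post ε f y ≤ 1 := by
  rw [← sum_bsc_left ε y]
  unfold post
  apply Finset.sum_le_sum
  intro x _
  split_ifs
  · exact le_rfl
  · exact bsc_nonneg h0 h1 x y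

/-- probability that `f(X)` is true. -/
noncomputable def ptrue {n : ℕ} (f : Cube n → Bool) : ℝ :=
  ((Finset.univ.filter (fun x => f x = true)).card : ℝ) / 2 ^ n

theorem sum_post (ε : ℝ) {n : ℕ} (f : Cube n → Bool) :
    (1 / 2 : ℝ) ^ n * ∑ y, post ε f y = ptrue f := by
  unfold post ptrue
  rw [Finset.sum_comm]
  have : ∀ x : Cube n, (∑ y, if f x = true then bsc ε x y else 0) = if f x = true then 1 else 0 := by
    intro x
    split_ifs
    · exact sum_bsc_right ε x
    · simp
  simp_rw [this]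
  rw [Finset.sum_ite, Finset.sum_const_zero, add_zero, Finset.sum_const, nsmul_eq_mul, mul_one]
  rw [one_div, inv_pow]
  ring

theorem card_cube (n : ℕ) : (Fintype.card (Cube n) : ℝ) = 2 ^ n := by
  simp [Cube]

theorem term_eq (c q p : ℝ) (hc : 0 < c) (h : p = 0 → q = 0) :
    c * q * Real.logb 2 (c * q / (p * c)) = c * (q * Real.logb 2 q - q * Real.logb 2 p) := by
  by_cases hq : q = 0
  · simp [hq]
  · have hp : p ≠ 0 := fun hp => hq (h hp)
    have : c * q / (p * c) = q / p := by
      field_simp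
    rw [this, Real.logb_div hq hp]
    ring

theorem mutualInfo_eq {ε : ℝ} (h0 : 0 ≤ ε) (h1 : ε ≤ 1) {n : ℕ} (f : Cube n → Bool) :
    mutualInfo (joint ε f) = h2 (ptrue f) - (1 / 2 : ℝ) ^ n * ∑ y, h2 (post ε f y) := by
  set c : ℝ := (1 / 2 : ℝ) ^ n with hc
  have hcpos : 0 < c := by positivity
  have hcN : c * (Fintype.card (Cube n) : ℝ) = 1 := by
    rw [card_cube, hc, one_div, inv_pow]
    field_simp
  have hrow_t : ∑ y, joint ε f true y = ptrue f := by
    simp_rw [joint_true]
    rw [← Finset.mul_sum]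
    exact sum_post ε f
  have hrow_f : ∑ y, joint ε f false y = 1 - ptrue f := by
    simp_rw [joint_false]
    rw [← Finset.mul_sum, Finset.sum_sub_distrib, mul_sub, sum_post ε f]
    simp only [Finset.sum_const, Finset.card_univ, nsmul_eq_mul, mul_one]
    rw [hcN]
  have hcol : ∀ y, ∑ b, joint ε f b y = c := by
    intro y
    rw [Fintype.sum_bool, joint_true, joint_false]
    ring
  have hp0 : ∀ y, ptrue f = 0 → post ε f y = 0 := by
    intro y hp
    have h := sum_post ε f
    rw [hp] at h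
    have hs : ∑ y, post ε f y = 0 := by
      rcases mul_eq_zero.mp h with h | h
      · exact absurd h hcpos.ne'
      · exact h
    exact (Finset.sum_eq_zero_iff_of_nonneg (fun y _ => post_nonneg h0 h1 f y)).mp hs y
      (Finset.mem_univ y)
  have hp1 : ∀ y, 1 - ptrue f = 0 → 1 - post ε f y = 0 := by
    intro y hp
    have h : c * ∑ y, (1 - post ε f y) = 0 := by
      rw [Finset.sum_sub_distrib, mul_sub, sum_post ε f]
      simp only [Finset.sum_const, Finset.card_univ, nsmul_eq_mul, mul_one]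
      rw [hcN]
      exact hp
    have hs : ∑ y, (1 - post ε f y) = 0 := by
      rcases mul_eq_zero.mp h with h | h
      · exact absurd h hcpos.ne'
      · exact h
    exact (Finset.sum_eq_zero_iff_of_nonneg
      (fun y _ => sub_nonneg.mpr (post_le_one h0 h1 f y))).mp hs y (Finset.mem_univ y)
  unfold mutualInfo
  rw [Fintype.sum_bool]
  simp_rw [hrow_t, hrow_f, hcol, joint_true, joint_false]
  rw [← hc]
  have e1 : ∀ y, c * post ε f y * Real.logb 2 (c * post ε f y / (ptrue f * c)) =
      c * (post ε f y * Real.logb 2 (post ε f y) - post ε f y * Real.logb 2 (ptrue f)) :=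
    fun y => term_eq c _ _ hcpos (hp0 y)
  have e2 : ∀ y, c * (1 - post ε f y) * Real.logb 2 (c * (1 - post ε f y) / ((1 - ptrue f) * c)) =
      c * ((1 - post ε f y) * Real.logb 2 (1 - post ε f y) -
        (1 - post ε f y) * Real.logb 2 (1 - ptrue f)) :=
    fun y => term_eq c _ _ hcpos (hp1 y)
  simp_rw [e1, e2]
  rw [← Finset.sum_add_distrib]
  have e3 : ∀ y, c * (post ε f y * Real.logb 2 (post ε f y) - post ε f y * Real.logb 2 (ptrue f)) +
      c * ((1 - post ε f y) * Real.logb 2 (1 - post ε f y) -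
        (1 - post ε f y) * Real.logb 2 (1 - ptrue f)) =
      - (c * h2 (post ε f y)) - (c * post ε f y) * Real.logb 2 (ptrue f)
        - (c * (1 - post ε f y)) * Real.logb 2 (1 - ptrue f) := by
    intro y
    unfold h2
    ring
  simp_rw [e3]
  rw [Finset.sum_sub_distrib, Finset.sum_sub_distrib, Finset.sum_neg_distrib, ← Finset.sum_mul,
    ← Finset.sum_mul, ← Finset.mul_sum, ← Finset.mul_sum, ← Finset.mul_sum, sum_post ε f,
    Finset.sum_sub_distrib, mul_sub, sum_post ε f]
  simp only [Finset.sum_const, Finset.card_univ, nsmul_eq_mul, mul_one]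
  rw [hcN]
  unfold h2
  ring

theorem concave_h2 : ConcaveOn ℝ (Set.Icc 0 1) h2 := by
  have h : h2 = fun p => (Real.log 2)⁻¹ • Real.binEntropy p := by
    funext p
    rw [h2_eq, smul_eq_mul]
    ring
  rw [h]
  exact Real.strictConcave_binEntropy.concaveOn.smul (by positivity)

theorem h2_zero : h2 0 = 0 := by simp [h2]

theorem h2_one : h2 1 = 0 := by simp [h2]

theorem h2_one_sub (p : ℝ) : h2 (1 - p) = h2 p := by
  unfold h2
  ring_nf

theorem h2_le_one (p : ℝ) : h2 p ≤ 1 := by
  rw [h2_eq, div_le_one (Real.log_pos (by norm_num))]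
  exact Real.binEntropy_le_log_two

theorem flip_same {n : ℕ} (x : Cube n) (j : Fin n) : flip x j j = !x j := by
  simp [flip]

theorem flip_other {n : ℕ} (x : Cube n) {i j : Fin n} (h : i ≠ j) : flip x j i = x i := by
  simp [flip, h]

theorem flip_flip {n : ℕ} (x : Cube n) (j : Fin n) : flip (flip x j) j = x := by
  funext i
  by_cases h : i = j
  · subst h
    simp [flip]
  · rw [flip_other _ h, flip_other _ h]

theorem flip_ne {n : ℕ} (x : Cube n) (j : Fin n) : flip x j ≠ x := by
  intro h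
  have := congrFun h j
  rw [flip_same] at this
  cases hx : x j <;> simp [hx] at this

/-- the factor of `bsc` at coordinate `j`. -/
noncomputable def fac (ε : ℝ) {n : ℕ} (x y : Cube n) (j : Fin n) : ℝ :=
  if x j = y j then 1 - ε else ε

theorem fac_flip (ε : ℝ) {n : ℕ} (x y : Cube n) (j : Fin n) :
    fac ε (flip x j) y j = 1 - fac ε x y j := by
  unfold fac
  rw [flip_same]
  cases x j <;> cases y j <;> simp

theorem bsc_split (ε : ℝ) {n : ℕ} (x y : Cube n) (j : Fin n) :
    bsc ε x y = fac ε x y j * ∏ i ∈ Finset.univ.erase j, (if x i = y i then 1 - ε else ε) := by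
  unfold bsc fac
  rw [Finset.mul_prod_erase Finset.univ (fun i => if x i = y i then 1 - ε else ε)
    (Finset.mem_univ j)]

theorem bsc_flip_split (ε : ℝ) {n : ℕ} (x y : Cube n) (j : Fin n) :
    bsc ε (flip x j) y =
      (1 - fac ε x y j) * ∏ i ∈ Finset.univ.erase j, (if x i = y i then 1 - ε else ε) := by
  rw [bsc_split ε (flip x j) y j, fac_flip]
  congr 1
  apply Finset.prod_congr rfl
  intro i hi
  rw [flip_other x (Finset.ne_of_mem_erase hi)]

/-- cellwise posterior used in the Jensen step. -/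
noncomputable def cellPost (ε : ℝ) {n : ℕ} (f : Cube n → Bool) (M : Finset (Cube n))
    (dir : Cube n → Fin n) (y x : Cube n) : ℝ :=
  if x ∈ M then (if f x = true then fac ε x y (dir x) else 1 - fac ε x y (dir x))
  else (if f x = true then 1 else 0)

theorem post_eq_cell (ε : ℝ) {n : ℕ} (f : Cube n → Bool) (M : Finset (Cube n))
    (dir : Cube n → Fin n)
    (hM : ∀ x ∈ M, flip x (dir x) ∈ M ∧ dir (flip x (dir x)) = dir x ∧ f (flip x (dir x)) ≠ f x)
    (y : Cube n) :
    post ε f y = ∑ x, bsc ε x y * cellPost ε f M dir y x := by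
  have key : ∑ x ∈ M, bsc ε x y * ((if f x = true then 1 else 0) - cellPost ε f M dir y x) = 0 := by
    apply Finset.sum_involution (fun x _ => flip x (dir x))
    · intro x hx
      obtain ⟨h1, h2, h3⟩ := hM x hx
      rw [bsc_flip_split, bsc_split ε x y (dir x)]
      unfold cellPost
      rw [if_pos hx, if_pos h1, h2, fac_flip]
      cases hf : f x <;> cases hf' : f (flip x (dir x))
      · exact absurd (hf'.trans hf.symm) h3
      · simp
        ring
      · simp
        ring
      · exact absurd (hf'.trans hf.symm) h3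
    · intro x _ _
      exact flip_ne x (dir x)
    · intro x hx
      exact (hM x hx).1
    · intro x hx
      rw [(hM x hx).2.1]
      exact flip_flip x (dir x)
  have key2 : ∑ x, bsc ε x y * ((if f x = true then 1 else 0) - cellPost ε f M dir y x) = 0 := by
    refine Eq.trans (Eq.symm ?_) key
    apply Finset.sum_subset (Finset.subset_univ M)
    intro x _ hx
    unfold cellPost
    rw [if_neg hx]
    simp
  have : post ε f y = ∑ x, bsc ε x y * (if f x = true then 1 else 0) := by
    unfold post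
    apply Finset.sum_congr rfl
    intro x _
    split_ifs <;> simp
  rw [this, ← sub_eq_zero, ← Finset.sum_sub_distrib]
  refine Eq.trans ?_ key2
  apply Finset.sum_congr rfl
  intro x _
  ring

theorem fac_mem {ε : ℝ} (h0 : 0 ≤ ε) (h1 : ε ≤ 1) {n : ℕ} (x y : Cube n) (j : Fin n) :
    fac ε x y j ∈ Set.Icc (0 : ℝ) 1 := by
  unfold fac
  split_ifs <;> constructor <;> linarith

theorem h2_fac (ε : ℝ) {n : ℕ} (x y : Cube n) (j : Fin n) : h2 (fac ε x y j) = h2 ε := by
  unfold fac
  split_ifs
  · exact h2_one_sub ε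
  · rfl

theorem jensen_step {ε : ℝ} (h0 : 0 ≤ ε) (h1 : ε ≤ 1) {n : ℕ} (f : Cube n → Bool)
    (M : Finset (Cube n)) (dir : Cube n → Fin n)
    (hM : ∀ x ∈ M, flip x (dir x) ∈ M ∧ dir (flip x (dir x)) = dir x ∧ f (flip x (dir x)) ≠ f x)
    (y : Cube n) :
    (∑ x ∈ M, bsc ε x y) * h2 ε ≤ h2 (post ε f y) := by
  have hj := concave_h2.le_map_sum (t := Finset.univ) (w := fun x => bsc ε x y)
    (p := fun x => cellPost ε f M dir y x) (fun x _ => bsc_nonneg h0 h1 x y) (sum_bsc_left ε y)
    (by
      intro x _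
      unfold cellPost
      split_ifs
      · exact fac_mem h0 h1 x y _
      · have := fac_mem h0 h1 x y (dir x)
        constructor <;> linarith [this.1, this.2]
      · exact ⟨zero_le_one, le_rfl⟩
      · exact ⟨le_rfl, zero_le_one⟩)
  simp only [smul_eq_mul] at hj
  rw [← post_eq_cell ε f M dir hM y] at hj
  refine le_trans (le_of_eq ?_) hj
  rw [Finset.sum_mul]
  symm
  rw [← Finset.sum_subset (Finset.subset_univ M)]
  · apply Finset.sum_congr rfl
    intro x hx
    unfold cellPost
    rw [if_pos hx]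
    split_ifs
    · rw [h2_fac]
    · rw [h2_one_sub, h2_fac]
  · intro x _ hx
    unfold cellPost
    rw [if_neg hx]
    split_ifs
    · rw [h2_one, mul_zero]
    · rw [h2_zero, mul_zero]

theorem result (n : ℕ) (f : Cube n → Bool) (ε : ℝ) (h0 : 0 ≤ ε) (h1 : ε ≤ 1 / 2)
    (M : Finset (Cube n)) (dir : Cube n → Fin n)
    (hM : ∀ x ∈ M, flip x (dir x) ∈ M ∧ dir (flip x (dir x)) = dir x ∧
      f (flip x (dir x)) ≠ f x) :
    mutualInfo (joint ε f) ≤
        h2 (((Finset.univ.filter (fun x => f x = true)).card : ℝ) / 2 ^ n)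
          - ((M.card : ℝ) / 2 ^ n) * h2 ε ∧
      (M = Finset.univ → mutualInfo (joint ε f) ≤ 1 - h2 ε) := by
  have h1' : ε ≤ 1 := by linarith
  have main : mutualInfo (joint ε f) ≤ h2 (ptrue f) - ((M.card : ℝ) / 2 ^ n) * h2 ε := by
    rw [mutualInfo_eq h0 h1' f]
    have hsum : (∑ y, (∑ x ∈ M, bsc ε x y) * h2 ε) ≤ ∑ y, h2 (post ε f y) :=
      Finset.sum_le_sum (fun y _ => jensen_step h0 h1' f M dir hM y)
    have hl : (∑ y, (∑ x ∈ M, bsc ε x y) * h2 ε) = (M.card : ℝ) * h2 ε := by
      rw [← Finset.sum_mul, Finset.sum_comm]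
      simp_rw [sum_bsc_right]
      simp
    rw [hl] at hsum
    have hc : (0 : ℝ) < (1 / 2 : ℝ) ^ n := by positivity
    have := mul_le_mul_of_nonneg_left hsum hc.le
    have e : (1 / 2 : ℝ) ^ n * ((M.card : ℝ) * h2 ε) = ((M.card : ℝ) / 2 ^ n) * h2 ε := by
      rw [one_div, inv_pow]
      ring
    rw [e] at this
    linarith
  refine ⟨main, ?_⟩
  intro hMu
  have hcard : ((M.card : ℝ) / 2 ^ n) = 1 := by
    rw [hMu, Finset.card_univ, card_cube]
    field_simp
  rw [hcard, one_mul] at main
  linarith [h2_le_one (ptrue f)]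

end Vale.Agent.Results.P322.MatchingBound
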